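import Vale.Agent.P269.LN.Base
import Vale.Agent.P269.G1I.Oper
import Vale.Agent.P269.G1I.H960.Ze
import Vale.Agent.P269.G1I.H819.C5a

/-!
# Matrices of operators on the ambient part
-/

set_option autoImplicit false

namespace Vale.Agent.P269.LN.H597

open Vale.Agent.P269.CI
open Vale.Agent.P269.G1

variable {X : CompleteIntersection} {F : ℕ → ℕ → List (Ins X) → ℂ}

variable (hF : IsGW X F) (h1 : IsGenusOne F)

/-- the matrix of an operator on the ambient part (rows are the images) -/
noncomputable def Mt (T : Module.End (RR X) (AA hF h1)) :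
    Matrix (Fin (X.dim + 1)) (Fin (X.dim + 1)) (RR X) :=
  Matrix.of fun i j => T (QA.bas (consts hF h1) i) j

theorem Mt_apply (T : Module.End (RR X) (AA hF h1)) (i j : Fin (X.dim + 1)) :
    Mt hF h1 T i j = T (QA.bas (consts hF h1) i) j := rfl

theorem trace_Mt (T : Module.End (RR X) (AA hF h1)) :
    LinearMap.trace (RR X) (AA hF h1) T = Matrix.trace (Mt hF h1 T) :=
  H819.trace_eq hF h1 T

theorem Mt_mul (S T : Module.End (RR X) (AA hF h1)) :
    Mt hF h1 (S * T) = Mt hF h1 T * Mt hF h1 S := by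
  ext1 i j
  rw [Matrix.mul_apply]
  change S (T (QA.bas (consts hF h1) i)) j = ∑ k, T (QA.bas (consts hF h1) i) k *
    S (QA.bas (consts hF h1) k) j
  conv_lhs => rw [H960.sum_bas hF h1 (T (QA.bas (consts hF h1) i)), map_sum]
  have h := Finset.sum_apply (M := fun _ : Fin (X.dim + 1) => RR X) j Finset.univ
    (fun k => (S (T (QA.bas (consts hF h1) i) k • QA.bas (consts hF h1) k) : AA hF h1))
  refine h.trans (Finset.sum_congr rfl fun k _ => ?_)
  rw [map_smul]
  rfl

theorem Mt_lmul (n : ℕ) : Mt hF h1 (Algebra.lmul (RR X) (AA hF h1) (Eu hF h1 ^ n)) =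
    (H276.TT hF h1) ^ n := by
  induction n with
  | zero =>
    ext1 i j
    rw [pow_zero, pow_zero, map_one, Matrix.one_apply]
    change QA.bas (consts hF h1) i j = _
    rw [QA.bas_apply]
    exact if_congr eq_comm rfl rfl
  | succ n ih =>
    rw [pow_succ, map_mul, Mt_mul, ih]
    have h : Mt hF h1 (Algebra.lmul (RR X) (AA hF h1) (Eu hF h1)) = H276.TT hF h1 := by
      ext1 i j
      change (Eu hF h1 * QA.bas (consts hF h1) i : AA hF h1) j = ∑ a, Eu hF h1 a * qc F a i j
      rw [QA.mul_def]
      refine Finset.sum_congr rfl fun a _ => ?_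
      rw [Finset.sum_eq_single i]
      · rw [QA.bas_apply, if_pos rfl, mul_one]
        rfl
      · intro b _ hb
        rw [QA.bas_apply, if_neg hb]
        ring
      · simp
    rw [h, ← pow_succ']

theorem ev0_trace (M : Matrix (Fin (X.dim + 1)) (Fin (X.dim + 1)) (RR X)) :
    H276.ev0 X (Matrix.trace M) = Matrix.trace (M.map (H276.ev0 X)) := by
  unfold Matrix.trace
  rw [map_sum]
  rfl

end Vale.Agent.P269.LN.H597
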