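import Vale.Agent.P269.LN.H597.Mt
import Vale.Agent.P269.LN.H660.TraceMu
import Vale.Agent.P269.LN.H660.LamZero

/-!
# [A5], [A7]: supertraces at the origin
-/

set_option autoImplicit false

namespace Vale.Agent.P269.LN.H597

open Vale.Agent.P269.CI
open Vale.Agent.P269.G1

variable {X : CompleteIntersection} {F : ℕ → ℕ → List (Ins X) → ℂ}

variable (hF : IsGW X F) (h1 : IsGenusOne F)

theorem Mt_mu : (Mt hF h1 (muO hF h1).1).map (H276.ev0 X) = Dm X := by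
  ext1 i j
  rw [Matrix.map_apply]
  change H276.ev0 X (((j : ℕ) : RR X) * QA.bas (consts hF h1) i j -
    cst X ((X.dim : ℂ) / 2) * QA.bas (consts hF h1) i j) = Dm X i j
  rw [QA.bas_apply, Dm, Matrix.diagonal_apply]
  have h : H276.ev0 X (cst X ((X.dim : ℂ) / 2)) = PowerSeries.C ((X.dim : ℂ) / 2) :=
    MvPowerSeries.constantCoeff_C _
  by_cases hij : i = j
  · subst hij
    rw [if_pos rfl, if_pos rfl, mul_one, mul_one, map_sub, map_natCast, h, map_sub, map_natCast]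
  · rw [if_neg (fun h => hij h.symm), if_neg hij, mul_zero, mul_zero, sub_zero, map_zero]

theorem Mt_pow (n : ℕ) : (Mt hF h1 (CC hF h1 (Eu hF h1 ^ n)).1).map (H276.ev0 X) =
    PowerSeries.C ((index X : ℂ) ^ n) • (qmul F) ^ n := by
  change (Mt hF h1 (Algebra.lmul (RR X) (AA hF h1) (Eu hF h1 ^ n))).map (H276.ev0 X) = _
  rw [Mt_lmul, Matrix.map_pow, H276.ev0_TT, smul_pow, map_pow]

theorem prim_zero (h4 : ∀ v : X.Prim, H276.ev0 X (lam hF h1 (Eu hF h1) v) = 0) (n : ℕ)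
    (hn : n ≠ 0) (v : X.Prim) : H276.ev0 X ((CC hF h1 (Eu hF h1 ^ n)).2 v) = 0 := by
  change H276.ev0 X (lam hF h1 (Eu hF h1 ^ n) v) = 0
  rw [map_pow]
  change H276.ev0 X ((lam hF h1 (Eu hF h1) v) ^ n) = 0
  rw [map_pow, h4, zero_pow hn]

/-- **[A5]** -/
theorem str_pow_of (h4 : ∀ v : X.Prim, H276.ev0 X (lam hF h1 (Eu hF h1) v) = 0) (ν : ℕ)
    (hν : index X = ν) (h2 : 2 ≤ ν) (l : ℕ → ℂ) (hl : IsL F ν l) :
    PowerSeries.coeff 1 (H276.ev0 X (strO hF h1 (CC hF h1 (Eu hF h1 ^ ν)))) =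
      (ν : ℂ) ^ (ν + 1) * ∑ n ∈ Finset.range (X.dim + 1), l n := by
  change PowerSeries.coeff 1 (H276.ev0 X (LinearMap.trace (RR X) (AA hF h1)
    (CC hF h1 (Eu hF h1 ^ ν)).1 + cst X ((-1) ^ X.dim) *
      ∑ v, (CC hF h1 (Eu hF h1 ^ ν)).2 v)) = _
  rw [map_add, map_mul, map_sum, Finset.sum_eq_zero fun v _ => prim_zero hF h1 h4 ν (by omega) v,
    mul_zero, add_zero, trace_Mt, ev0_trace, Mt_pow, Matrix.trace_smul, smul_eq_mul,
    PowerSeries.coeff_C_mul, H660.trace_pow hF ν hν h2 l hl, hν]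
  push_cast
  ring

/-- **[A7]** -/
theorem str_mu_of (h4 : ∀ v : X.Prim, H276.ev0 X (lam hF h1 (Eu hF h1) v) = 0) (ν : ℕ)
    (hν : index X = ν) (h2 : 2 ≤ ν) (l : ℕ → ℂ) (hl : IsL F ν l) :
    ∑ b ∈ Finset.range (ν + 1), PowerSeries.coeff 1 (H276.ev0 X (strO hF h1
      (muO hF h1 * CC hF h1 (Eu hF h1 ^ (ν - b)) * muO hF h1 * CC hF h1 (Eu hF h1 ^ b)))) =
      (ν : ℂ) ^ ν * ∑ n ∈ Finset.range (X.dim + 1), l n *
        ((ν : ℂ) * (ν + 1) * ((n : ℂ) - (X.dim + ν - 1) / 2) ^ 2 +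
          (ν : ℂ) * ((ν : ℂ) ^ 2 - 1) / 12) := by
  rw [← H660.trace_mu hF ν hν h2 l hl, Finset.mul_sum]
  refine Finset.sum_congr rfl fun b hb => ?_
  have hb' : b ≤ ν := by have := Finset.mem_range.mp hb; omega
  have hz : ∀ v : X.Prim, H276.ev0 X ((muO hF h1).2 v * (CC hF h1 (Eu hF h1 ^ (ν - b))).2 v *
      (muO hF h1).2 v * (CC hF h1 (Eu hF h1 ^ b)).2 v) = 0 := by
    intro v
    rw [map_mul, map_mul, map_mul]
    by_cases h0 : b = 0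
    · rw [prim_zero hF h1 h4 (ν - b) (by omega) v]
      ring
    · rw [prim_zero hF h1 h4 b h0 v, mul_zero]
  change PowerSeries.coeff 1 (H276.ev0 X (LinearMap.trace (RR X) (AA hF h1)
    ((muO hF h1).1 * (CC hF h1 (Eu hF h1 ^ (ν - b))).1 * (muO hF h1).1 *
      (CC hF h1 (Eu hF h1 ^ b)).1) + cst X ((-1) ^ X.dim) *
      ∑ v, (muO hF h1).2 v * (CC hF h1 (Eu hF h1 ^ (ν - b))).2 v *
        (muO hF h1).2 v * (CC hF h1 (Eu hF h1 ^ b)).2 v)) = _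
  rw [trace_Mt, Mt_mul, Mt_mul, Mt_mul, map_add, map_mul (H276.ev0 X) (cst X _), map_sum,
    Finset.sum_eq_zero fun v _ => hz v, mul_zero, add_zero, ev0_trace, Matrix.map_mul,
    Matrix.map_mul, Matrix.map_mul, Mt_mu, Mt_pow, Mt_pow]
  have e : (PowerSeries.C ((index X : ℂ) ^ b) • qmul F ^ b) *
      (Dm X * ((PowerSeries.C ((index X : ℂ) ^ (ν - b)) • qmul F ^ (ν - b)) * Dm X)) =
      PowerSeries.C ((ν : ℂ) ^ ν) • (qmul F ^ b * (Dm X * (qmul F ^ (ν - b) * Dm X))) := by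
    rw [Matrix.smul_mul, Matrix.smul_mul, Matrix.mul_smul, Matrix.mul_smul, smul_smul,
      ← map_mul, ← pow_add, Nat.add_sub_cancel' hb', hν, Int.cast_natCast]
  rw [e, Matrix.trace_smul, smul_eq_mul, PowerSeries.coeff_C_mul, Matrix.trace_mul_comm,
    ← mul_assoc]

/-- **[A7]** -/
theorem str_mu (ν : ℕ) (hν : index X = ν) (h2 : 2 ≤ ν) (l : ℕ → ℂ) (hl : IsL F ν l) :
    ∑ b ∈ Finset.range (ν + 1), PowerSeries.coeff 1 (H276.ev0 X (strO hF h1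
      (muO hF h1 * CC hF h1 (Eu hF h1 ^ (ν - b)) * muO hF h1 * CC hF h1 (Eu hF h1 ^ b)))) =
      (ν : ℂ) ^ ν * ∑ n ∈ Finset.range (X.dim + 1), l n *
        ((ν : ℂ) * (ν + 1) * ((n : ℂ) - (X.dim + ν - 1) / 2) ^ 2 +
          (ν : ℂ) * ((ν : ℂ) ^ 2 - 1) / 12) :=
  str_mu_of hF h1 (fun v => H660.lam_zero hF h1 (by rw [hν]; exact_mod_cast h2) v) ν hν h2 l hl

end Vale.Agent.P269.LN.H597
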